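import Vale.Agent.P181.TL.Defs
import Vale.Agent.P181.H463.Balance
import Vale.Agent.P181.SZR1b.Dim
import Vale.Agent.P181.SZR3.Col

set_option autoImplicit false

/-!
# P181, TL, T2: the balanced content has the largest multiplicity
-/

open MvPolynomial

namespace Vale.Agent.P181.TL.H639

open Vale.Agent.P181.T4 (HW rowOp rowOp_apply mem_HW)
open Vale.Agent.P181.SZR3 (colD rowD_eq rowD_colD colH_colD rowH_colD)
open Vale.Agent.P181.SZ.R1b (cmp coeff_cmp cmp_rowOp cdeg)

/-- The space of highest weight polynomials with given column degrees is finite dimensional. -/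
instance finiteDimensional_KK (m : ℕ) (σ : Type) [Fintype σ] (d : σ → ℕ) (mu : Fin m → ℕ) :
    FiniteDimensional ℂ (KK m σ d mu) := by
  have h : KK m σ d mu ≤ HW m σ mu := fun f hf => hf.1
  exact FiniteDimensional.of_injective (Submodule.inclusion h) (Submodule.inclusion_injective h)

/-- The family of all `KK` is stable under polarizations. -/
lemma stable (k a : ℕ) (tau : Fin k → ℕ) :
    H463.Stable (K := ℂ) (ρ := Fin k) (σ := Fin a) (fun d => KK k (Fin a) d tau) where
  deg := fun d f hf m hm j => by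
    have h := hf.2 m hm j
    change ((∑ r, m (r, j) : ℕ) : ℤ) = (d j : ℤ)
    rw [h]
  pol := fun d i j hij f hf => by
    have e : H463.pol ℂ i j f = colD i j f := rfl
    rw [e]
    refine ⟨⟨rowH_colD hf.1.1, fun s r hsr => ?_⟩, ?_⟩
    · rw [← rowD_eq, rowD_colD, rowD_eq, hf.1.2 s r hsr, map_zero]
    · refine colH_colD (d := d + Pi.single j 1) hf.2 fun l => ?_
      simp only [Pi.add_apply, Pi.single_apply, @eq_comm _ i l, @eq_comm _ j l]
      ring
  fin := fun d => inferInstance

lemma cmp_mem {k a : ℕ} {tau : Fin k → ℕ} (d : Fin a → ℕ)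
    {f : MvPolynomial (Fin k × Fin a) ℂ} (hf : f ∈ HW k (Fin a) tau) :
    cmp d f ∈ KK k (Fin a) d tau := by
  classical
  obtain ⟨h1, h2⟩ := hf
  refine ⟨⟨fun v hv => ?_, fun s i hsi => ?_⟩, fun v hv j => ?_⟩
  · rw [coeff_cmp] at hv
    by_cases h : cdeg v = d
    · rw [if_pos h] at hv
      exact h1 v hv
    · rw [if_neg h] at hv
      exact absurd rfl hv
  · rw [cmp_rowOp, h2 s i hsi, map_zero]
  · rw [coeff_cmp] at hv
    by_cases h : cdeg v = d
    · exact congrFun h j
    · rw [if_neg h] at hv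
      exact absurd rfl hv

/-- **(T2)** the balanced content has the largest multiplicity. -/
theorem balB : BalB := by
  classical
  intro k a tau f ha hf hsum
  have hst := stable k a tau
  let S := (Finset.univ : Finset (Fin a)).piAntidiag (∑ i, tau i)
  let L : HW k (Fin a) tau →ₗ[ℂ] ((d : S) → KK k (Fin a) (d : Fin a → ℕ) tau) :=
    LinearMap.pi fun d =>
      ((cmp (m := k) (d : Fin a → ℕ)).comp (HW k (Fin a) tau).subtype).codRestrict
        (KK k (Fin a) (d : Fin a → ℕ) tau) (fun f => cmp_mem _ f.2)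
  have hL : Function.Injective L := by
    rw [← LinearMap.ker_eq_bot, LinearMap.ker_eq_bot']
    intro g hg
    apply Subtype.ext
    apply MvPolynomial.ext
    intro v
    rw [ZeroMemClass.coe_zero, coeff_zero]
    by_contra hv
    have h1 : cdeg v ∈ S := by
      rw [Finset.mem_piAntidiag]
      refine ⟨?_, fun i _ => Finset.mem_univ i⟩
      have h2 : ∀ i, ∑ j, v (i, j) = tau i := g.2.1 v hv
      calc ∑ j, cdeg v j = ∑ j, ∑ i, v (i, j) := rfl
        _ = ∑ i, ∑ j, v (i, j) := Finset.sum_comm
        _ = ∑ i, tau i := Finset.sum_congr rfl fun i _ => h2 i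
    have h3 := congrArg Subtype.val (congrFun hg ⟨cdeg v, h1⟩)
    have h4 : cmp (cdeg v) (g : MvPolynomial (Fin k × Fin a) ℂ) = 0 := h3
    have h5 := congrArg (coeff v) h4
    rw [coeff_cmp, if_pos rfl, coeff_zero] at h5
    exact hv h5
  have h1 := LinearMap.finrank_le_finrank_of_injective hL
  rw [Module.finrank_pi_fintype] at h1
  refine h1.trans ?_
  have h2 : ∀ d : S, Module.finrank ℂ (KK k (Fin a) (d : Fin a → ℕ) tau) ≤
      Module.finrank ℂ (KK k (Fin a) f tau) := fun d =>
    hst.le_balanced hf (d : Fin a → ℕ) ((Finset.mem_piAntidiag.1 d.2).1.trans hsum.symm)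
  refine (Finset.sum_le_sum fun d _ => h2 d).trans ?_
  rw [Finset.sum_const, smul_eq_mul, Finset.card_univ, Fintype.card_coe,
    H463.card_piAntidiag_univ, Fintype.card_fin]

end Vale.Agent.P181.TL.H639
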